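import Vale.Agent.P269HA.Pn
import Vale.Agent.P269HP.IF

/-!
# P269, row H4: the Euler characteristic of the structure sheaf of projective space is one
-/

open scoped Manifold ContDiff Topology
open Vale.Agent.P272.K Vale.Agent.P281Z.Hg Vale.Agent.P281Z.Hg.G2H Vale.Agent.P275MC
  Vale.Agent.P275FM
open Vale.Agent.P275AR (ty del ty_vl)
open Vale.Agent.P264Z (CP)
open Vale.Agent.P269HK Vale.Agent.P269HS Vale.Agent.P269HN Vale.Agent.P269HP

noncomputable section

namespace Vale.Agent.P269HA

section alg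
variable {T : Type*} [AddCommGroup T] [Module ℂ T] {D σ : Module.End ℂ T} {o : T}

/-- a differential module whose cohomology is spanned by one even class -/
theorem chi_one (c : Ch D D σ) (h0 : D o = 0) (h1 : σ o = o)
    (h2 : ∀ z, D z = 0 → ∃ (a : ℂ) (y : T), z = a • o + D y)
    (h3 : ∀ (a : ℂ) (y : T), a • o = D y → a = 0) : Fd D ∧ chi D σ = 1 := by
  have hf : Ch (0 : Module.End ℂ ℂ) D (LinearMap.toSpanSingleton ℂ T o) :=
    Ch.of_comm fun a => by simp [h0]
  have hb : Function.Bijective (Coh.map _ hf) := by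
    constructor
    · rw [Coh.map_inj]
      exact fun z y' _ h => ⟨0, h3 z y' h⟩
    · rw [Coh.map_surj]
      intro z hz
      obtain ⟨a, y, h⟩ := h2 z hz
      exact ⟨a, -y, rfl, by rw [h, map_neg]; simp⟩
  have hs : Function.Bijective (Coh.mkL (0 : Module.End ℂ ℂ) ∘ₗ
      LinearMap.codRestrict (LinearMap.ker (0 : Module.End ℂ ℂ)) LinearMap.id fun _ => rfl) := by
    constructor
    · rw [injective_iff_map_eq_zero]
      intro a ha
      obtain ⟨y, hy⟩ := (Coh.mk_eq_zero (D := (0 : Module.End ℂ ℂ)) (z := a) (hz := rfl)).1 ha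
      exact hy
    · intro x
      obtain ⟨z, hz, rfl⟩ := Coh.ind x
      exact ⟨z, rfl⟩
  have e := LinearEquiv.ofBijective _ hs
  have hfd : Fd (0 : Module.End ℂ ℂ) := Module.Finite.equiv e
  refine ⟨(fd_of_bij hf hb).1 hfd, ?_⟩
  rw [← chi_of_bij (σ₁ := LinearMap.id) hf hb Ch.id c (fun a _ => by simp [h1]), chi_eq Ch.id,
    show Coh.map LinearMap.id (Ch.id (D := (0 : Module.End ℂ ℂ))) = LinearMap.id from
      LinearMap.ext Coh.map_id, LinearMap.trace_id, ← e.finrank_eq]
  simp

end alg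

section
variable {n : ℕ} {Y : Type} [TopologicalSpace Y] [ChartedSpace (Cm n) Y]
  [IsManifold 𝓘(ℂ, Cm n) ω Y] {I : Type} (H : HC n Y I)

theorem ty0_one : ty n Y 0 (one n Y) = one n Y := ext' fun e x h => funext fun K => by
  rw [ty_eq, tf_vl' _ _ h, one_vl _ _ h]
  by_cases hK : K = ∅
  · subst hK
    exact (congrArg (· * _) (if_pos rfl)).trans (one_mul _)
  · simp [P299.IX.Fock.ev, hK]

/-- untwisted forms as constant families -/
def cst (u : SF n Y) (h : ty n Y 0 u = u) : H.A 0 :=
  ⟨fun _ => u, fun _ => h, fun _ _ _ _ _ => by rw [pow_zero, pow_zero]⟩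

theorem val_eq (v : H.A 0) (i j : I) : v.1 i = v.1 j := ext' fun e y h => by
  have := v.2.2 e y h i j
  rwa [pow_zero, pow_zero, one_smul, one_smul] at this

end

theorem anc : ANC := fun n => by
  refine chi_one (o := cst (hc (pn n)) _ ty0_one) (Ch.of_anti HC.D_σ)
    (Subtype.ext (funext fun _ => ?_)) (Subtype.ext (funext fun _ => ?_)) (fun z hz => ?_)
    fun a y h => one_not_exact (congrFun (congrArg Subtype.val h) 0)
  · show dlb n (CP n) (one n (CP n)) = 0
    have h1 := ty_dlb 0 (one n (CP n))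
    have h2 := del_add_dlb (one n (CP n))
    rw [dd_one] at h2
    rw [ty0_one, eq_neg_of_add_eq_zero_right h2, map_neg, ty0_del, neg_zero] at h1
    rw [eq_neg_of_add_eq_zero_right h2, ← h1]
  · show pr n (CP n) (one n (CP n)) = one n (CP n)
    rw [pr_Dg one_Dg]
    simp
  · obtain ⟨c, v, hv, h⟩ := anchor (z.2.1 0) (congrFun (congrArg Subtype.val hz) 0)
    exact ⟨c, cst _ v hv, Subtype.ext (funext fun i => (val_eq _ z i 0).trans h)⟩

end Vale.Agent.P269HA
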