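import Vale.Agent.P275FM.Kah
import Vale.Agent.P281Z.Hg.Fg3a
import Vale.Agent.P264Z.G.FS2
import Mathlib.Analysis.Complex.Liouville

/-!
# The Dolbeault cohomology of the structure sheaf of complex projective space
-/

open scoped Manifold ContDiff Topology Matrix ComplexOrder
open Filter Bornology
open Vale.Agent.P272.K Vale.Agent.P272.K.C2 Vale.Agent.P299.IX Vale.Agent.P299.IX.Fock
  Vale.Agent.P281Z.Hg Vale.Agent.P281Z.Hg.G2H Vale.Agent.P281Z.Hg.F1bH Vale.Agent.P275MC
  Vale.Agent.P275FM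
open Vale.Agent.P275AR (ty del ty_vl)
open Vale.Agent.P264Z (CP)
open Vale.Agent.P264Z.CP

noncomputable section

namespace Vale.Agent.P269HA

variable {n : ℕ}

theorem lam_ev_cont (I : FI n) :
    Continuous fun J : Matrix (Fin n) (Fin n) ℂ => lam J *ᵥ ev I := by
  induction I using Finset.induction_on_min with
  | empty => simpa only [lam_ev_empty] using continuous_const
  | insert i I hi ih =>
    simp only [lam_ev_insert _ hi]
    refine Continuous.matrix_mulVec ?_ ih
    unfold epsV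
    exact continuous_finsetSum _ fun p _ =>
      (continuous_id.matrix_elem p i).smul continuous_const

theorem lam_cont : Continuous fun J : Matrix (Fin n) (Fin n) ℂ => lam J :=
  continuous_matrix fun K I => by
    simp only [← mulVec_ev]
    exact (continuous_apply K).comp (lam_ev_cont I)

theorem lam_zero (v : Fk n) {K : FI n} (hK : K ≠ ∅) : (lam 0 *ᵥ v) K = 0 := by
  show ∑ I, lam 0 K I * v I = 0
  refine Finset.sum_eq_zero fun I _ => mul_eq_zero_of_left ?_ _
  rw [← mulVec_ev (lam 0) I K, ← Matrix.diagonal_zero, lam_diagonal_ev, Pi.smul_apply,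
    smul_eq_mul]
  rcases I.eq_empty_or_nonempty with rfl | ⟨i, hi⟩
  · simp [ev, hK]
  · rw [Finset.prod_eq_zero hi rfl, zero_mul]

theorem fd_lim {G : ℂ × Cm n → ℂ} {z : Cm n} (hG : ContDiffAt ℝ 1 G (0, z)) {g : Cm n → ℂ}
    (hg : ∀ t : ℂ, t ≠ 0 → ∀ y, g y = G (t⁻¹, t⁻¹ • y)) (v : Cm n) :
    Tendsto (fun t : ℂ => fderiv ℝ g (t • z) v) (cobounded ℂ) (𝓝 0) := by
  have h0 : Tendsto (fun t : ℂ => t⁻¹) (cobounded ℂ) (𝓝 0) := tendsto_inv₀_cobounded
  have hc : ContinuousAt (fun s : ℂ => ((s, z) : ℂ × Cm n)) 0 := by fun_prop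
  have h1 : ContinuousAt (fun s : ℂ => fderiv ℝ G (s, z) (0, s • v)) 0 :=
    (ContinuousAt.comp (f := fun s : ℂ => ((s, z) : ℂ × Cm n))
      (hG.continuousAt_fderiv one_ne_zero) hc).clm_apply (by fun_prop)
  have h2 := h1.tendsto.comp h0
  simp only [zero_smul, Prod.mk_zero_zero, map_zero] at h2
  refine h2.congr' ?_
  have h3 : ∀ᶠ t : ℂ in cobounded ℂ, DifferentiableAt ℝ G (t⁻¹, z) :=
    (hc.tendsto.comp h0).eventually ((hG.eventually (by simp)).mono fun _ h =>
      h.differentiableAt one_ne_zero)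
  filter_upwards [h3, eventually_ne_cobounded 0] with t h4 ht
  have h5 : HasFDerivAt (fun y : Cm n => ((t⁻¹, t⁻¹ • y) : ℂ × Cm n))
      ((0 : Cm n →L[ℝ] ℂ).prod (t⁻¹ • ContinuousLinearMap.id ℝ (Cm n))) (t • z) :=
    (hasFDerivAt_const _ _).prodMk ((hasFDerivAt_id _).const_smul t⁻¹)
  have h6 : HasFDerivAt G (fderiv ℝ G (t⁻¹, z)) (t⁻¹, t⁻¹ • t • z) := by
    rw [inv_smul_smul₀ ht]
    exact h4.hasFDerivAt
  rw [show g = G ∘ fun y : Cm n => ((t⁻¹, t⁻¹ • y) : ℂ × Cm n) from funext (hg t ht),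
    (h6.comp (t • z) h5).fderiv]
  rfl

theorem dr_lim {G : ℂ × Cm n → ℂ} {z : Cm n} (hG : ContDiffAt ℝ 1 G (0, z)) {g : Cm n → ℂ}
    (hg : ∀ t : ℂ, t ≠ 0 → ∀ y, g y = G (t⁻¹, t⁻¹ • y)) (p : Fin (n + n)) :
    Tendsto (fun t : ℂ => dr p g (t • z)) (cobounded ℂ) (𝓝 0) := by
  induction p using idx with
  | h j =>
    have := ((fd_lim hG hg (Pi.single j 1)).sub
      ((fd_lim hG hg (Pi.single j Complex.I)).const_mul Complex.I)).div_const 2
    simpa only [ka.dr_hl, dz, mul_zero, sub_zero, zero_div] using this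
  | h' j =>
    have := ((fd_lim hG hg (Pi.single j 1)).add
      ((fd_lim hG hg (Pi.single j Complex.I)).const_mul Complex.I)).div_const 2
    simpa only [ka.dr_ah, dzb, mul_zero, add_zero, zero_div] using this

/-- homogeneous coordinates with `s` at the place `i` -/
def inz (i : Fin (n + 1)) (q : ℂ × Cm n) : Fin (n + 1) → ℂ := Fin.insertNth i q.1 q.2

theorem cd_inz (i : Fin (n + 1)) : ContDiff ℂ ω (inz i) := contDiff_pi.2 fun k => by
  induction k using Fin.succAboveCases i with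
  | x => simpa [inz] using contDiff_fst
  | p j =>
    simp only [inz, Fin.insertNth_apply_succAbove]
    exact (contDiff_apply ℂ ℂ j).comp contDiff_snd

theorem ins_eq (i : Fin (n + 1)) {t : ℂ} (ht : t ≠ 0) (y : Cm n) :
    ins i y = t • inz i (t⁻¹, t⁻¹ • y) := funext fun k => by
  induction k using Fin.succAboveCases i with
  | x => simp [inz, ht]
  | p j => simp [inz, ht]

theorem cd_psi (i : Fin (n + 1)) {z : Cm n} {j : Fin n} (hj : z j ≠ 0) :
    ContDiffAt ℝ 1 (fun q => aff (i.succAbove j) (inz i q)) (0, z) :=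
  (((contDiffAt_aff _ (by simpa [inz] using hj)).comp (0, z)
    (cd_inz i).contDiffAt).restrict_scalars ℝ).of_le le_top

theorem jc_lim (i : Fin (n + 1)) {z : Cm n} {j : Fin n} (hj : z j ≠ 0) :
    Tendsto (fun t : ℂ => jc (fun y => aff (i.succAbove j) (ins i y)) (t • z)) (cobounded ℂ)
      (𝓝 0) := by
  refine tendsto_pi_nhds.2 fun p => tendsto_pi_nhds.2 fun l => ?_
  refine dr_lim (G := fun q => cx (aff (i.succAbove j) (inz i q)) l) ?_
    (fun t ht y => by simp only [ins_eq i ht y, aff_smul _ ht]) p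
  induction l using idx with
  | h k => simpa only [cx, hl, Fin.addCases_left] using contDiffAt_pi.1 (cd_psi i hj) k
  | h' k =>
    simp only [cx, ah, Fin.addCases_right]
    exact Complex.conjCLE.contDiff.contDiffAt.comp _ (contDiffAt_pi.1 (cd_psi i hj) k)

theorem vl_cd (g : SF n (CP n)) (i : Fin (n + 1)) (z : Cm n) :
    DifferentiableAt ℝ (vl g (chart i)) z := by
  simpa only [chart_pt] using dif g (at_pt i z)

theorem vl_lim (g : SF n (CP n)) (i : Fin (n + 1)) {z : Cm n} {j : Fin n} (hj : z j ≠ 0) :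
    ∃ v, Tendsto (fun t : ℂ => vl g (chart i) (t • z)) (cobounded ℂ) (𝓝 (lam 0 *ᵥ v)) := by
  have h0 : Tendsto (fun t : ℂ => ((t⁻¹, z) : ℂ × Cm n)) (cobounded ℂ) (𝓝 (0, z)) :=
    tendsto_inv₀_cobounded.prodMk_nhds tendsto_const_nhds
  have h1 := (vl_cd g (i.succAbove j) _).continuousAt.tendsto.comp
    ((cd_psi i hj).continuousAt.tendsto.comp h0)
  have h2 := lam_cont.continuousAt.tendsto.comp (jc_lim i hj)
  have h3 : Continuous fun q : FM (n + n) × Fk (n + n) => q.1 *ᵥ q.2 :=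
    continuous_fst.matrix_mulVec continuous_snd
  refine ⟨_, ((h3.tendsto _).comp (h2.prodMk_nhds h1)).congr' ?_⟩
  filter_upwards [eventually_ne_cobounded 0] with t ht
  have h4 : At (chart (i.succAbove j)) (pt i (t • z)) :=
    ⟨Set.mem_range_self _, (mem_source_mk _ _).2 (by simp [ht, hj])⟩
  have h5 := (vl_isF g).ch _ _ _ (at_pt i (t • z)) h4
  rw [chart_pt, chart_pt', ins_eq i ht, aff_smul _ ht, inv_smul_smul₀ ht, jt, chart_pt] at h5
  rw [h5]
  simp only [Function.comp, chart_symm, chart_pt']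

section
variable {M : Type} [TopologicalSpace M] [ChartedSpace (Cm n) M] [IsManifold 𝓘(ℂ, Cm n) ω M]
  {g : SF n M} {e : Chart n M} {x : M}

theorem ty0_vl (h0 : ty n M 0 g = g) (h : At e x) {I : FI (n + n)} (hI : P281Z.Hg.tp I ≠ 0) :
    vl g e (e x) I = 0 := by
  rw [← h0, ty_eq, tf_vl' _ _ h, if_neg hI, zero_mul]

theorem dz_zero (h1 : del n M g = 0) (h : At e x) {I : FI (n + n)} (hI : P281Z.Hg.tp I = 0)
    (j : Fin n) : dz j (fun y => vl g e y I) (e x) = 0 := by
  have h2 : ∀ k, hl k ∉ I := fun k hk =>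
    (Finset.card_ne_zero.2 ⟨hl k, Finset.mem_filter.2 ⟨hk, hl_lt k⟩⟩) hI
  have h3 := congrFun (del_vl g h) (insert (hl j) I)
  rw [h1, vl_zero, Finset.sum_apply, Finset.sum_eq_single j, eps_mulVec,
    if_pos (Finset.mem_insert_self _ _), Finset.erase_insert (h2 j), Dv, ka.dr_hl] at h3
  · refine (mul_eq_zero.1 h3.symm).resolve_left fun h4 => ?_
    have := sg_mul_self (hl j) (insert (hl j) I)
    rw [h4, mul_zero] at this
    exact zero_ne_one this
  · intro k _ hk
    rw [eps_mulVec, if_neg]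
    rw [Finset.mem_insert, hl_inj]
    exact fun h => h.elim hk (h2 k)
  · exact fun h => (h (Finset.mem_univ _)).elim

theorem one_not_exact [Nonempty M] {c : ℂ} {v : SF n M} (h : c • one n M = dlb n M v) :
    c = 0 := by
  have h1 := pj_dlb (-1) v
  have h2 := pj_mem (-1) v
  rw [Dg_neg (by norm_num), Submodule.mem_bot] at h2
  rw [← h, h2, map_zero, neg_add_cancel, map_smul, pj_eq one_Dg] at h1
  obtain ⟨x⟩ := ‹Nonempty M›
  exact P275AR.one_Nb (x := x) (h1 ▸ zero_mem _)

end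

theorem line_eq {g : SF n (CP n)} (h1 : del n (CP n) g = 0) (i : Fin (n + 1)) {z : Cm n}
    {j : Fin n} (hj : z j ≠ 0) : ∃ v, ∀ I, P281Z.Hg.tp I = 0 → ∀ t : ℂ,
      vl g (chart i) (t • z) I = (lam 0 *ᵥ v) I := by
  obtain ⟨v, hv⟩ := vl_lim g i hj
  refine ⟨v, fun I hI t => (starRingEnd ℂ).injective ?_⟩
  have h2 : Differentiable ℂ fun y => starRingEnd ℂ (vl g (chart i) y I) := fun y => by
    have h3 := differentiableAt_pi.1 (vl_cd g i y) I
    refine Fg3.diff_of_dzb (Complex.conjCLE.differentiable.differentiableAt.comp y h3) fun k => ?_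
    have h4 := dz_zero h1 (at_pt i y) hI k
    rw [chart_pt] at h4
    rw [dzb_conj k h3, h4, map_zero]
  refine (h2.comp (differentiable_id.smul_const z)).apply_eq_of_tendsto_cocompact t ?_
  rw [← Metric.cobounded_eq_cocompact]
  exact (Complex.continuous_conj.tendsto _).comp (tendsto_pi_nhds.1 hv I)

theorem chart_const {g : SF n (CP n)} (h0 : ty n (CP n) 0 g = g) (h1 : del n (CP n) g = 0)
    (i : Fin (n + 1)) (z : Cm n) : vl g (chart i) z = vl g (chart i) 0 ∅ • ev ∅ := by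
  funext I
  by_cases hI : P281Z.Hg.tp I = 0
  · rcases I.eq_empty_or_nonempty with rfl | ⟨l, hl'⟩
    · rw [Pi.smul_apply, ev, Pi.single_eq_same, smul_eq_mul, mul_one]
      by_cases hz : z = 0
      · rw [hz]
      · obtain ⟨j, hj⟩ := Function.ne_iff.1 hz
        obtain ⟨v, hv⟩ := line_eq h1 i hj
        have h2 := (hv ∅ hI 1).trans (hv ∅ hI 0).symm
        rwa [one_smul, zero_smul] at h2
    · have hne : I ≠ ∅ := Finset.ne_empty_of_mem hl'
      rw [Pi.smul_apply, ev, Pi.single_eq_of_ne hne, smul_zero]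
      by_cases hz : z = 0
      · have j : Fin n := Fin.addCases id id l
        obtain ⟨v, hv⟩ := line_eq h1 i (z := fun _ => 1) (j := j) one_ne_zero
        have h2 := hv I hI 0
        rwa [zero_smul, lam_zero _ hne, ← hz] at h2
      · obtain ⟨j, hj⟩ := Function.ne_iff.1 hz
        obtain ⟨v, hv⟩ := line_eq h1 i hj
        have h2 := hv I hI 1
        rwa [one_smul, lam_zero _ hne] at h2
  · have h2 := ty0_vl h0 (at_pt i z) hI
    rw [chart_pt] at h2
    have hne : I ≠ ∅ := by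
      rintro rfl
      exact hI rfl
    rw [h2, Pi.smul_apply, ev, Pi.single_eq_of_ne hne, smul_zero]

/-- antiholomorphic forms on projective space are constants -/
theorem anti_const {g : SF n (CP n)} (h0 : ty n (CP n) 0 g = g) (h1 : del n (CP n) g = 0) :
    ∃ c : ℂ, g = c • one n (CP n) := by
  refine ⟨vl g (chart 0) 0 ∅, ext' fun e x h => ?_⟩
  obtain ⟨i, rfl⟩ := h.1
  have ha : ∀ k : Fin (n + 1), At (chart k) (pt 0 fun _ : Fin n => (1 : ℂ)) := fun k =>
    ⟨Set.mem_range_self _, (mem_source_mk _ _).2 (by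
      induction k using Fin.succAboveCases 0 with
      | x => simp
      | p j => exact (ins_succAbove 0 (fun _ : Fin n => (1 : ℂ)) j).trans_ne one_ne_zero)⟩
  have h2 := (vl_isF g).ch _ _ _ (ha i) (ha 0)
  rw [chart_const h0 h1 i, chart_const h0 h1 0, Matrix.mulVec_smul, lam_ev_empty] at h2
  rw [vl_smul, one_vl _ _ h, chart_const h0 h1 i, h2]

theorem ex_kahler (n : ℕ) : ∃ w : Rw n (CP n) (Matrix (Fin n) (Fin n) ℂ), IsKahler w := by
  rcases n with _ | n
  · exact ⟨fun _ _ => 1, ⟨fun _ _ _ _ _ => contDiffAt_const, fun _ _ _ => Matrix.PosDef.one,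
      fun _ _ _ _ _ => Subsingleton.elim _ _⟩, fun _ _ _ i => i.elim0⟩
  · refine ⟨_, P264Z.isKahler_wF (b := 1) (F := fun _ => 0) one_pos contDiff_const fun y _ => ?_⟩
    have : P264Z.mom 1 (fun _ => 0) = fun y => y := funext fun y => by simp [P264Z.mom]
    rw [this, deriv_id'']
    exact one_pos

/-- **H4** : a `dlb` closed form of type `(0, *)` on projective space is a constant plus a
`dlb` exact form -/
theorem anchor {u : SF n (CP n)} (h0 : ty n (CP n) 0 u = u) (h1 : dlb n (CP n) u = 0) :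
    ∃ (c : ℂ) (v : SF n (CP n)), ty n (CP n) 0 v = v ∧ u = c • one n (CP n) + dlb n (CP n) v := by
  obtain ⟨w, hw⟩ := ex_kahler n
  obtain ⟨H, -, h2, -, h3, -⟩ := (kah_all hw).2.1
  obtain ⟨g, hg, b, hb⟩ := h3 u h1
  obtain ⟨c, hc⟩ := anti_const (gr_ty.idem 0 g) (by rw [← ty_del, (h2 g hg).1, map_zero])
  exact ⟨c, _, gr_ty.idem 0 b, by rw [← hc, ← ty_dlb, ← map_add, ← hb, h0]⟩

end Vale.Agent.P269HA
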