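import Vale.Agent.P269HS.Spec
import Vale.Agent.P269HW.Cut

/-!
# P269, row XI: the conormal frame and a smooth dual frame
-/

open scoped Manifold ContDiff Topology Matrix ComplexOrder
open Filter MvPolynomial
open Vale.Agent.P272.K Vale.Agent.P272.K.C2
open Vale.Agent.P269H (CI)
open Vale.Agent.P269HK Vale.Agent.P269HP Vale.Agent.P269HS

noncomputable section

namespace Vale.Agent.P269HA

section Mat

variable {a b : Type} [Fintype a] [Fintype b] [DecidableEq a]

/-- the right inverse of a matrix with independent rows -/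
def rinv (A : Matrix a b ℂ) : Matrix b a ℂ := Aᴴ * (A * Aᴴ)⁻¹

theorem gram_det {A : Matrix a b ℂ} (h : LinearIndependent ℂ A.row) : (A * Aᴴ).det ≠ 0 := by
  intro h0
  obtain ⟨v, hv, h1⟩ := Matrix.exists_vecMul_eq_zero_iff.2 h0
  rw [Matrix.vecMul_self_mul_conjTranspose_eq_zero] at h1
  exact hv (Matrix.vecMul_injective_iff.2 h (h1.trans (Matrix.zero_vecMul A).symm))

theorem mul_rinv {A : Matrix a b ℂ} (h : (A * Aᴴ).det ≠ 0) : A * rinv A = 1 := by
  rw [rinv, ← Matrix.mul_assoc, Matrix.mul_nonsing_inv _ (Ne.isUnit h)]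

theorem det_diag {B : Matrix a b ℂ} {d : a → ℂ}
    (h : (Matrix.diagonal d * B * (Matrix.diagonal d * B)ᴴ).det ≠ 0) : (B * Bᴴ).det ≠ 0 := by
  intro h0
  refine h ?_
  rw [Matrix.conjTranspose_mul, Matrix.mul_assoc, ← Matrix.mul_assoc B, Matrix.det_mul,
    Matrix.det_mul, h0, zero_mul, mul_zero]

theorem rinv_diag {B : Matrix a b ℂ} {d : a → ℂ} (hd : ∀ m, d m ≠ 0) :
    rinv (Matrix.diagonal d * B) * Matrix.diagonal d = rinv B := by
  have h1 : IsUnit (Matrix.diagonal d).det := by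
    rw [Matrix.det_diagonal]
    exact (Finset.prod_ne_zero_iff.2 fun m _ => hd m).isUnit
  have h2 : IsUnit (Matrix.diagonal d)ᴴ.det := by
    rw [Matrix.det_conjTranspose]
    exact h1.star
  rw [rinv, rinv, Matrix.conjTranspose_mul, Matrix.mul_assoc (Matrix.diagonal d),
    ← Matrix.mul_assoc B, Matrix.mul_inv_rev, Matrix.mul_inv_rev]
  simp only [Matrix.mul_assoc]
  rw [Matrix.nonsing_inv_mul _ h1, Matrix.mul_one, Matrix.mul_nonsing_inv_cancel_left _ _ h2]

end Mat

section

variable {n N : ℕ} {Y : Type} [TopologicalSpace Y] [ChartedSpace (Cm n) Y] (H : HC n Y (Fin N))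

theorem nsq_ne {v : Fin N → ℂ} (h : ∃ k, v k ≠ 0) : ∑ l, v l * star (v l) ≠ 0 := by
  obtain ⟨k, hk⟩ := h
  intro h0
  have h1 : star v ⬝ᵥ v = 0 := by
    rw [← h0]
    exact Finset.sum_congr rfl fun l _ => mul_comm _ _
  exact hk (congrFun (dotProduct_star_self_eq_zero.1 h1) k)

theorem x_yy (y : Y) : ∑ i, H.x y i * yy H y i = 1 := by
  simp only [yy, ← mul_div_assoc]
  rw [← Finset.sum_div, div_self (nsq_ne (H.ne y))]

theorem smt_star {g : Y → ℂ} {y : Y} (h : Smt n g y) : Smt n (fun x => star (g x)) y :=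
  fun e he => Complex.conjCLE.contDiff.contDiffAt.comp _ (h e he)

theorem hs_yy (i : Fin N) : H.Hs (-1) fun y => yy H y i := fun y k hk => by
  have h1 : ∀ l, Smt n (fun x => H.x x l / H.x x k) y := fun l => smt_of_hol (H.hol y k hk l)
  have h2 := Smt.sum Finset.univ fun l _ => (h1 l).mul (smt_star (h1 l))
  have h3 : Smt n (fun x => star (H.x x i / H.x x k) /
      ∑ l, H.x x l / H.x x k * star (H.x x l / H.x x k)) y := fun e he => by
    refine ((smt_star (h1 i) e he).mul ((h2 e he).inv ?_)).congr_of_eventuallyEq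
      (.of_forall fun z => div_eq_mul_inv _ _)
    rw [e.left_inv he.2]
    exact nsq_ne (v := fun l => H.x y l / H.x y k) ⟨k, div_ne_zero hk hk⟩
  refine h3.congr ((H.near hk).mono fun x hx => ?_)
  have h4 : star (H.x x k) ≠ 0 := star_ne_zero.2 hx
  have h5 := nsq_ne (H.ne x)
  simp only [star_div₀, div_mul_div_comm, ← Finset.sum_div, yy, zpow_neg_one]
  field_simp

end

variable {r c : ℕ} {M : Type} [TopologicalSpace M] [ChartedSpace (Cm r) M] (X : CI r c M)

theorem dg_ne (m : Fin c) (y : M) : X.dg m ≠ 0 := fun h0 => by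
  refine (X.ind y).ne_zero m (funext fun i => ?_)
  have h1 := X.hom m
  rw [h0] at h1
  rw [totalDegree_eq_zero_iff_eq_C.1 ((totalDegree_zero_iff_isHomogeneous _).2 h1)]
  simp

theorem hh_aa (m : Fin c) (i : Fin (r + c + 1)) :
    (hc X).Hh ((X.dg m : ℤ) - 1) fun y => aa X m y i := fun y k hk => by
  have h := P269HW.hh_poly X ((X.hom m).pderiv (i := i)) y k hk
  rwa [Nat.cast_sub (Nat.one_le_iff_ne_zero.2 (dg_ne X m y)), Nat.cast_one] at h

theorem x_aa (m : Fin c) (y : M) : ∑ i, (hc X).x y i * aa X m y i = 0 := by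
  have h := congrArg (eval (X.pt y).rep) (X.hom m).sum_X_mul_pderiv
  rw [map_sum, map_nsmul, (X.rng _).1 ⟨y, rfl⟩ m, smul_zero] at h
  simp only [eval_mul, eval_X] at h
  exact h

/-- the matrix of the differentials -/
def am (y : M) : Matrix (Fin c) (Fin (r + c + 1)) ℂ := Matrix.of fun m i => aa X m y i

theorem am_det (y : M) : (am X y * (am X y)ᴴ).det ≠ 0 := gram_det (X.ind y)

theorem hs_xi (m : Fin c) (i : Fin (r + c + 1)) :
    (hc X).Hs (1 - (X.dg m : ℤ)) fun y => rinv (am X y) i m := fun y k hk => by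
  set B : M → Matrix (Fin c) (Fin (r + c + 1)) ℂ :=
    fun x => Matrix.of fun m i => aa X m x i / (hc X).x x k ^ ((X.dg m : ℤ) - 1)
  have h1 : ∀ x, (hc X).x x k ≠ 0 →
      am X x = Matrix.diagonal (fun m => (hc X).x x k ^ ((X.dg m : ℤ) - 1)) * B x := fun x hx => by
    ext m i
    rw [Matrix.diagonal_mul]
    exact (mul_div_cancel₀ _ (zpow_ne_zero _ hx)).symm
  have h2 : Smt r (fun x => rinv (B x) i m) y := fun e he => by
    have h3 : MC ∞ (fun z => B (e.symm z)) (e y) := fun m i => (hh_aa X m i).hs y k hk e he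
    refine (h3.conjTranspose.mul ((h3.mul h3.conjTranspose).inv ?_)) i m
    rw [e.left_inv he.2]
    exact det_diag (h1 y hk ▸ am_det X y)
  refine h2.congr (((hc X).near hk).mono fun x hx => ?_)
  rw [← rinv_diag (d := fun m => (hc X).x x k ^ ((X.dg m : ℤ) - 1)) fun _ => zpow_ne_zero _ hx,
    ← h1 x hx, Matrix.mul_diagonal, div_eq_mul_inv, ← zpow_neg, neg_sub]

theorem yy_xi (m : Fin c) (y : M) : ∑ i, yy (hc X) y i * rinv (am X y) i m = 0 := by
  have h1 : (fun i => yy (hc X) y i) ᵥ* (am X y)ᴴ = 0 := funext fun m' => by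
    have h := congrArg star (x_aa X m' y)
    rw [star_sum, star_zero] at h
    simp only [Matrix.vecMul, dotProduct, yy, div_mul_eq_mul_div, ← Finset.sum_div,
      Matrix.conjTranspose_apply, am, Matrix.of_apply, Pi.zero_apply]
    simp only [star_mul'] at h
    rw [h, zero_div]
  have h2 : (fun i => yy (hc X) y i) ᵥ* rinv (am X y) = 0 := by
    rw [rinv, ← Matrix.vecMul_vecMul, h1, Matrix.zero_vecMul]
  exact congrFun h2 m

/-- **XI** -/
theorem xi : XI := fun _ _ _ _ _ _ X =>
  ⟨hh_aa X, x_aa X, hs_yy _, x_yy _, fun m y i => rinv (am X y) i m, hs_xi X, fun m m' y => by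
    have h := congrFun (congrFun (mul_rinv (am_det X y)) m') m
    rw [Matrix.mul_apply, Matrix.one_apply] at h
    rw [if_congr eq_comm rfl rfl, ← h]
    exact Finset.sum_congr rfl fun i _ => mul_comm _ _, yy_xi X⟩

end Vale.Agent.P269HA
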